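import Mathlib
import Vale.Agent.P150.H185.CritMain
import Vale.Agent.P150.H704.Transfer

/-! The spectral gap at the critical point, deterministic part of the planted argument. -/

open MeasureTheory ProbabilityTheory Filter Topology

namespace Vale.Agent.P150.H425

open Vale.Agent.P150.Cav Vale.Agent.P150.H185.Crit Vale.Agent.P150.H704

variable {n : ℕ}

/-- `x · G x / n` -/
noncomputable def q (z : ℂ) (g : Pairs n → ℝ) (x : Cfg n) : ℂ :=
  (n : ℂ)⁻¹ * ∑ i, Gx z g x i * (sp (x i) : ℂ)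

lemma q_eq (z : ℂ) (g : Pairs n → ℝ) (x : Cfg n) :
    q z g x = (n : ℂ)⁻¹ * ∑ i, ∑ j, Gm z g i j * (sp (x i) : ℂ) * (sp (x j) : ℂ) := by
  unfold q Gx
  congr 1
  refine Finset.sum_congr rfl fun i _ => ?_
  rw [Finset.sum_mul]
  exact Finset.sum_congr rfl fun j _ => by ring

lemma aa_eq (z : ℂ) (β : ℝ) (g : Pairs n → ℝ) :
    aa z β g = ∑ x : Cfg n, (pw β g x : ℂ) * q z g x := by
  unfold aa q
  rw [Finset.mul_sum]
  exact Finset.sum_congr rfl fun x _ => by ring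

lemma neg_im_q (z : ℂ) (hz : 0 < z.im) (g : Pairs n → ℝ) (x : Cfg n) : 0 ≤ -(q z g x).im := by
  unfold q
  have h2 : ((n : ℂ)⁻¹) = (((n : ℝ)⁻¹ : ℝ) : ℂ) := by push_cast; rfl
  rw [h2, Complex.im_ofReal_mul, ← mul_neg, im_Gx z hz g x]
  have := nsq_nonneg (Gx z g x)
  positivity

lemma continuous_q (z : ℂ) (hz : 0 < z.im) (x : Cfg n) :
    Continuous (fun g : Pairs n → ℝ => q z g x) := by
  unfold q Gx
  refine continuous_const.mul (continuous_finsetSum _ fun i _ => ?_)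
  refine Continuous.mul (continuous_finsetSum _ fun k _ => ?_) continuous_const
  exact (continuous_Gm z hz i k).mul continuous_const

/-- resolvent identity in the spectral parameter -/
lemma Gm_shift (z z1 : ℂ) (hz : 0 < z.im) (hz1 : 0 < z1.im) (g : Pairs n → ℝ) (l k : Fin n) :
    Gm z g l k = Gm z1 g l k + (z1 - z) * ∑ m, Gm z g l m * Gm z1 g m k := by
  have hA : Am z1 g - Am z g = (z1 - z) • (1 : Matrix (Fin n) (Fin n) ℂ) := by
    ext i j
    simp only [Matrix.sub_apply, Am, Matrix.smul_apply, Matrix.one_apply, smul_eq_mul]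
    by_cases h : i = j
    · simp only [h, if_true]
      ring
    · simp only [h, if_false]
      ring
  have h1 : Gm z g - Gm z1 g = Gm z g * (Am z1 g - Am z g) * Gm z1 g := by
    rw [Matrix.mul_sub, Matrix.sub_mul, Gm_mul_Am z g hz, Matrix.mul_assoc, Am_mul_Gm z1 g hz1,
      Matrix.one_mul, Matrix.mul_one]
  rw [hA, Matrix.mul_smul, Matrix.mul_one, Matrix.smul_mul] at h1
  have h2 := congrFun (congrFun h1 l) k
  rw [Matrix.sub_apply, Matrix.smul_apply, Matrix.mul_apply, smul_eq_mul] at h2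
  rw [← h2]
  ring

lemma mm_shift (z z1 : ℂ) (hz : 0 < z.im) (h1 : z1.im = z.im) (hd : ‖z1 - z‖ ≤ z.im)
    (g : Pairs n → ℝ) : -(mm z g).im ≤ 4 * -(mm z1 g).im := by
  have hz1 : 0 < z1.im := by rw [h1]; exact hz
  have key : ∀ k : Fin n, ∑ l, ‖Gm z g l k‖ ^ 2 ≤ 4 * ∑ l, ‖Gm z1 g l k‖ ^ 2 := by
    intro k
    set v : Fin n → ℂ := fun l => Gm z1 g l k with hv
    have hw : nsq ((Gm z g).mulVec v) ≤ ((z.im)⁻¹) ^ 2 * nsq v := (coer_im z g).nsq_inv_le hz v
    have hpt : ∀ l, ‖Gm z g l k‖ ^ 2 ≤ 2 * ‖v l‖ ^ 2 +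
        2 * (z.im ^ 2 * ‖(Gm z g).mulVec v l‖ ^ 2) := by
      intro l
      have e1 : Gm z g l k = v l + (z1 - z) * (Gm z g).mulVec v l :=
        Gm_shift z z1 hz hz1 g l k
      have e2 : ‖Gm z g l k‖ ≤ ‖v l‖ + z.im * ‖(Gm z g).mulVec v l‖ := by
        rw [e1]
        refine (norm_add_le _ _).trans ?_
        rw [norm_mul]
        have := mul_le_mul_of_nonneg_right hd (norm_nonneg ((Gm z g).mulVec v l))
        linarith only [this]
      have e3 := pow_le_pow_left₀ (norm_nonneg _) e2 2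
      nlinarith only [e3, sq_nonneg (‖v l‖ - z.im * ‖(Gm z g).mulVec v l‖)]
    have hs : ∑ l, ‖Gm z g l k‖ ^ 2 ≤ 2 * nsq v + 2 * (z.im ^ 2 * nsq ((Gm z g).mulVec v)) := by
      refine (Finset.sum_le_sum fun l _ => hpt l).trans (le_of_eq ?_)
      rw [Finset.sum_add_distrib, ← Finset.mul_sum, ← Finset.mul_sum, ← Finset.mul_sum]
      rfl
    have h3 : z.im ^ 2 * nsq ((Gm z g).mulVec v) ≤ nsq v := by
      calc z.im ^ 2 * nsq ((Gm z g).mulVec v) ≤ z.im ^ 2 * (((z.im)⁻¹) ^ 2 * nsq v) :=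
            mul_le_mul_of_nonneg_left hw (sq_nonneg _)
        _ = nsq v := by
            have : z.im ≠ 0 := hz.ne'
            field_simp
    have h4 : nsq v = ∑ l, ‖Gm z1 g l k‖ ^ 2 := rfl
    rw [← h4]
    linarith only [hs, h3]
  rw [neg_im_mm z hz, neg_im_mm z1 hz1, h1]
  have hsum : ∑ l, ∑ k, ‖Gm z g l k‖ ^ 2 ≤ 4 * ∑ l, ∑ k, ‖Gm z1 g l k‖ ^ 2 := by
    rw [Finset.sum_comm, Finset.sum_comm (f := fun l k => ‖Gm z1 g l k‖ ^ 2), Finset.mul_sum]
    exact Finset.sum_le_sum fun k _ => key k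
  have h5 : 0 ≤ (n : ℝ)⁻¹ := by positivity
  calc z.im * ((n : ℝ)⁻¹ * ∑ l, ∑ k, ‖Gm z g l k‖ ^ 2)
      ≤ z.im * ((n : ℝ)⁻¹ * (4 * ∑ l, ∑ k, ‖Gm z1 g l k‖ ^ 2)) :=
        mul_le_mul_of_nonneg_left (mul_le_mul_of_nonneg_left hsum h5) hz.le
    _ = _ := by ring

/-- the planted resolvent entry is of size `1 / t` -/
lemma im_div {t : ℝ} (ht : 0 < t) (ht1 : t ≤ 1 / 4) (u b : ℂ) (huim : u.im = t)
    (hnu : ‖u‖ ^ 2 = (1 + t) ^ 2 + t ^ 2) (hnd : ‖u - 1‖ ^ 2 = 2 * t ^ 2) (hu1 : 1 ≤ ‖u‖)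
    (hb : ‖b - u⁻¹‖ < t / 10) : (6 * t)⁻¹ ≤ -(b / (1 - b)).im := by
  have hu0 : u ≠ 0 := by
    intro h; rw [h] at huim; simp only [Complex.zero_im] at huim; exact ht.ne huim
  have him : t / 2 ≤ -b.im := by
    have h1 := Complex.abs_im_le_norm (b - u⁻¹)
    have h2 := le_abs_self (b - u⁻¹).im
    have h3 : (u⁻¹).im = -(t / ((1 + t) ^ 2 + t ^ 2)) := by
      rw [Complex.inv_im, ← hnu, ← huim, Complex.sq_norm, neg_div]
    rw [Complex.sub_im, h3] at h1 h2
    have h4 : 3 * t / 5 ≤ t / ((1 + t) ^ 2 + t ^ 2) := by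
      rw [le_div_iff₀ (by positivity)]
      nlinarith only [ht, ht1, mul_pos ht ht, mul_pos (mul_pos ht ht) ht]
    linarith only [h1, h2, h4, hb]
  have hne : 1 - b ≠ 0 := by
    intro h
    have := congrArg Complex.im h
    rw [Complex.sub_im] at this
    simp only [Complex.one_im, Complex.zero_im] at this
    linarith only [this, him, ht]
  have hnorm : ‖1 - b‖ ≤ 8 / 5 * t := by
    have e1 : 1 - b = (u - 1) * u⁻¹ - (b - u⁻¹) := by
      field_simp
      ring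
    have h1 : ‖(u - 1) * u⁻¹‖ ≤ ‖u - 1‖ := by
      rw [norm_mul, norm_inv]
      exact mul_le_of_le_one_right (norm_nonneg _) (inv_le_one_of_one_le₀ hu1)
    have h2 : ‖u - 1‖ ≤ 3 / 2 * t := by
      have h3 : ‖u - 1‖ ^ 2 ≤ (3 / 2 * t) ^ 2 := by
        rw [hnd]; nlinarith only [ht, mul_pos ht ht]
      exact (abs_le_of_sq_le_sq' h3 (by positivity)).2
    rw [e1]
    refine (norm_sub_le _ _).trans ?_
    linarith only [h1, h2, hb]
  have hD : 0 < Complex.normSq (1 - b) := Complex.normSq_pos.2 hne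
  have e2 : -(b / (1 - b)).im = -b.im / Complex.normSq (1 - b) := by
    have e3 : b / (1 - b) = (1 - b)⁻¹ - 1 := by
      field_simp
      ring
    rw [e3, Complex.sub_im, Complex.inv_im, Complex.sub_im]
    simp only [Complex.one_im]
    ring
  rw [e2, le_div_iff₀ hD, ← Complex.sq_norm, inv_mul_le_iff₀ (by positivity)]
  have h5 := pow_le_pow_left₀ (norm_nonneg _) hnorm 2
  nlinarith only [h5, him, ht, mul_pos ht ht, mul_le_mul_of_nonneg_left him ht.le]


lemma prob_disorder (n : ℕ) : IsProbabilityMeasure (disorder n) := by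
  unfold disorder; infer_instance

/-- the event that the resolvent entry is not large -/
def Sx (z : ℂ) (t : ℝ) (x : Cfg n) : Set (Pairs n → ℝ) := {g | -(q z g x).im < (6 * t)⁻¹}

lemma measurableSet_Sx (z : ℂ) (hz : 0 < z.im) (t : ℝ) (x : Cfg n) :
    MeasurableSet (Sx z t x : Set (Pairs n → ℝ)) := by
  have h : Measurable fun g : Pairs n → ℝ => -(q z g x).im :=
    (Complex.continuous_im.comp (continuous_q z hz x)).neg.measurable
  exact h measurableSet_Iio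

/-- Gibbs mass of the bad configurations -/
noncomputable def muS (z : ℂ) (t : ℝ) (g : Pairs n → ℝ) : ℝ :=
  ∑ x : Cfg n, pw 1 g x * (Sx z t x).indicator 1 g

lemma muS_nonneg (z : ℂ) (t : ℝ) (g : Pairs n → ℝ) : 0 ≤ muS z t g :=
  Finset.sum_nonneg fun x _ => mul_nonneg (pw_pos 1 g x).le
    (Set.indicator_nonneg (fun _ _ => zero_le_one) _)

lemma muS_le_one (z : ℂ) (t : ℝ) (g : Pairs n → ℝ) : muS z t g ≤ 1 := by
  refine le_trans (Finset.sum_le_sum fun x _ => ?_) (pw_sum 1 g).le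
  refine mul_le_of_le_one_right (pw_pos 1 g x).le ?_
  exact Set.indicator_le_self' (fun _ _ => zero_le_one) _

lemma integrable_muS (z : ℂ) (hz : 0 < z.im) (t : ℝ) :
    Integrable (fun g : Pairs n → ℝ => muS z t g) (disorder n) := by
  have := prob_disorder n
  have hm : Measurable fun g : Pairs n → ℝ => muS z t g := by
    unfold muS
    refine Finset.measurable_sum _ fun x _ => ?_
    exact (continuous_pw 1 x).measurable.mul
      (measurable_one.indicator (measurableSet_Sx z hz t x))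
  refine Integrable.of_bound hm.aestronglyMeasurable 1 (Eventually.of_forall fun g => ?_)
  rw [Real.norm_eq_abs, abs_of_nonneg (muS_nonneg z t g)]
  exact muS_le_one z t g

/-- If most configurations have a large resolvent entry, `a` is large. -/
lemma neg_im_aa_ge (z : ℂ) (hz : 0 < z.im) {t : ℝ} (ht : 0 < t) (g : Pairs n → ℝ)
    (hg : muS z t g ≤ 1 / 2) : (12 * t)⁻¹ ≤ -(aa z 1 g).im := by
  have e1 : -(aa z 1 g).im = ∑ x : Cfg n, pw 1 g x * -(q z g x).im := by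
    rw [aa_eq, Complex.im_sum, ← Finset.sum_neg_distrib]
    exact Finset.sum_congr rfl fun x _ => by rw [Complex.im_ofReal_mul]; ring
  have h1 : ∀ x : Cfg n, pw 1 g x * ((6 * t)⁻¹ * (1 - (Sx z t x).indicator 1 g)) ≤
      pw 1 g x * -(q z g x).im := by
    intro x
    refine mul_le_mul_of_nonneg_left ?_ (pw_pos 1 g x).le
    by_cases hx : g ∈ Sx z t x
    · rw [Set.indicator_of_mem hx]
      simp only [Pi.one_apply, sub_self, mul_zero]
      exact neg_im_q z hz g x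
    · rw [Set.indicator_of_notMem hx, sub_zero, mul_one]
      exact not_lt.1 hx
  have h2 := Finset.sum_le_sum fun x (_ : x ∈ (Finset.univ : Finset (Cfg n))) => h1 x
  have e2 : ∑ x : Cfg n, pw 1 g x * ((6 * t)⁻¹ * (1 - (Sx z t x).indicator 1 g)) =
      (6 * t)⁻¹ * (1 - muS z t g) := by
    have e3 : ∀ x : Cfg n, pw 1 g x * ((6 * t)⁻¹ * (1 - (Sx z t x).indicator 1 g)) =
        (6 * t)⁻¹ * pw 1 g x - (6 * t)⁻¹ * (pw 1 g x * (Sx z t x).indicator 1 g) :=
      fun x => by ring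
    rw [Finset.sum_congr rfl fun x _ => e3 x, Finset.sum_sub_distrib, ← Finset.mul_sum,
      ← Finset.mul_sum, pw_sum]
    unfold muS
    ring
  rw [e2] at h2
  rw [e1]
  refine le_trans ?_ h2
  have h3 : (12 * t)⁻¹ = (6 * t)⁻¹ * (1 / 2) := by
    field_simp
    norm_num
  rw [h3]
  refine mul_le_mul_of_nonneg_left ?_ (by positivity)
  linarith only [hg]

/-- Fixed `n`: the probability of a gap at least `100 t²`. -/
theorem fixed {t : ℝ} (ht : 0 < t) (ht1 : t ≤ 1 / 4) (hn : 1 ≤ n) (u z z1 : ℂ) (huim : u.im = t)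
    (hnu : ‖u‖ ^ 2 = (1 + t) ^ 2 + t ^ 2) (hnd : ‖u - 1‖ ^ 2 = 2 * t ^ 2) (hu1 : 1 ≤ ‖u‖)
    (hus : ‖u - u⁻¹‖ ≤ 4 * u.im) (hz1 : z1 = u + u⁻¹) (hz : z1 = z + (n : ℂ)⁻¹)
    (hzim : t ^ 2 ≤ z1.im) (hbig : 24 ≤ n * t ^ 3)
    (hplant : ∀ (g : Pairs n → ℝ) (x : Cfg n),
      q z (g + plant x) x = q z1 g x / (1 - q z1 g x))
    {s d0 d1 : ℝ}
    (hA : (disorder n).real {g | ∑ x, Real.exp (energy (skJ 1 g) 0 x)
            < Real.exp (-s) * (2 ^ n * Real.exp (((n : ℝ) - 1) / 4))} ≤ d0)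
    (hB : ((2 : ℝ) ^ n)⁻¹ * ∑ x : Cfg n, (disorder n).real {g | u.im / 10 ≤ ‖q z1 g x - u⁻¹‖} ≤ d1) :
    (disorder n).real {g | 100 * t ^ 2 ≤ gap (skJ 1 g) (fun _ => 0)} ≤
      2 * (d0 + Real.exp s * d1) + 64 * (n * t ^ 3)⁻¹ ^ 2 := by
  have := prob_disorder n
  have hn' : (0 : ℝ) < n := by exact_mod_cast hn
  have hn0 : 0 < n := hn
  have hzz : z.im = z1.im := by
    rw [hz, Complex.add_im]
    have : ((n : ℂ)⁻¹) = (((n : ℝ)⁻¹ : ℝ) : ℂ) := by push_cast; rfl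
    rw [this, Complex.ofReal_im, add_zero]
  have hz1p : 0 < z1.im := lt_of_lt_of_le (by positivity) hzim
  have hzp : 0 < z.im := by rw [hzz]; exact hz1p
  have hu0 : 0 < u.im := by rw [huim]; exact ht
  -- sizes
  set a : ℝ := (z1.im)⁻¹ * (n : ℝ)⁻¹ with ha
  have ha0 : 0 < a := by positivity
  have hat : a ≤ (n * t ^ 3)⁻¹ * t := by
    have h1 : (z1.im)⁻¹ ≤ (t ^ 2)⁻¹ := inv_anti₀ (by positivity) hzim
    calc a ≤ (t ^ 2)⁻¹ * (n : ℝ)⁻¹ := mul_le_mul_of_nonneg_right h1 (by positivity)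
      _ = _ := by field_simp
  have hnt : (n * t ^ 3)⁻¹ ≤ 1 / 24 := by
    rw [one_div]
    exact inv_anti₀ (by norm_num) hbig
  have h24 : 24 * a ≤ u.im := by
    rw [huim]
    have : (n * t ^ 3)⁻¹ * t ≤ 1 / 24 * t := mul_le_mul_of_nonneg_right hnt ht.le
    linarith only [this, hat]
  -- local law
  have hL := local_law (n := n) u hu0 hu1 hus z1 hz1 hz1p hn0 h24
  rw [← ha] at hL
  have hImm : Integrable (fun g : Pairs n → ℝ => ‖mm z1 g - u⁻¹‖ ^ 2) (disorder n) := by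
    refine Integrable.of_bound (((continuous_mm (n := n) z1 hz1p).sub continuous_const).norm.pow
      2).measurable.aestronglyMeasurable
      (((z1.im)⁻¹ + ‖u⁻¹‖) ^ 2) (Eventually.of_forall fun g => ?_)
    rw [Real.norm_eq_abs, abs_of_nonneg (by positivity)]
    exact pow_le_pow_left₀ (norm_nonneg _)
      ((norm_sub_le _ _).trans (add_le_add (norm_mm_le z1 hz1p hn0 g) le_rfl)) 2
  have hM1 := mul_meas_ge_le_integral_of_nonneg (μ := disorder n)
    (Eventually.of_forall fun g : Pairs n → ℝ => sq_nonneg ‖mm z1 g - u⁻¹‖) hImm (t ^ 2)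
  have hP1 : (disorder n).real {g : Pairs n → ℝ | t ^ 2 ≤ ‖mm z1 g - u⁻¹‖ ^ 2} ≤
      64 * (n * t ^ 3)⁻¹ ^ 2 := by
    have h1 : t ^ 2 * (disorder n).real {g : Pairs n → ℝ | t ^ 2 ≤ ‖mm z1 g - u⁻¹‖ ^ 2} ≤
        t ^ 2 * (64 * (n * t ^ 3)⁻¹ ^ 2) := by
      refine (hM1.trans hL).trans ?_
      have h2 := pow_le_pow_left₀ ha0.le hat 2
      calc 64 * a ^ 2 ≤ 64 * ((n * t ^ 3)⁻¹ * t) ^ 2 := mul_le_mul_of_nonneg_left h2 (by norm_num)
        _ = _ := by ring
    exact le_of_mul_le_mul_left h1 (by positivity)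
  -- transfer
  have hT := transfer (n := n) hn (fun x => Sx z t x) (fun x => measurableSet_Sx z hzp t x) s
  have hT2 : ∑ x : Cfg n, (disorder n).real {g | g + plant x ∈ Sx z t x} ≤
      ∑ x : Cfg n, (disorder n).real {g | u.im / 10 ≤ ‖q z1 g x - u⁻¹‖} := by
    refine Finset.sum_le_sum fun x _ => measureReal_mono ?_
    intro g hg
    have hg' : -(q z (g + plant x) x).im < (6 * t)⁻¹ := hg
    by_contra hcon
    have h1 : ‖q z1 g x - u⁻¹‖ < t / 10 := by
      rw [← huim]; exact not_le.1 hcon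
    have h2 := im_div ht ht1 u (q z1 g x) huim hnu hnd hu1 h1
    rw [hplant] at hg'
    linarith only [h2, hg']
  have hI : ∫ g, muS z t g ∂(disorder n) ≤ d0 + Real.exp s * d1 := by
    refine hT.trans (add_le_add hA ?_)
    rw [mul_assoc]
    refine mul_le_mul_of_nonneg_left ?_ (Real.exp_pos _).le
    refine le_trans ?_ hB
    exact mul_le_mul_of_nonneg_left hT2 (by positivity)
  have hM2 := mul_meas_ge_le_integral_of_nonneg (μ := disorder n)
    (Eventually.of_forall fun g : Pairs n → ℝ => muS_nonneg z t g) (integrable_muS z hzp t) (1 / 2)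
  have hP2 : (disorder n).real {g : Pairs n → ℝ | 1 / 2 ≤ muS z t g} ≤
      2 * (d0 + Real.exp s * d1) := by
    linarith only [hM2, hI]
  -- union
  have hsub : {g : Pairs n → ℝ | 100 * t ^ 2 ≤ gap (skJ 1 g) (fun _ => 0)} ⊆
      {g | 1 / 2 ≤ muS z t g} ∪ {g | t ^ 2 ≤ ‖mm z1 g - u⁻¹‖ ^ 2} := by
    intro g hg
    have hg' : 100 * t ^ 2 ≤ gap (skJ 1 g) (fun _ => 0) := hg
    by_contra hcon
    have hc1 : ¬ (1 / 2 ≤ muS z t g) := fun h => hcon (Or.inl h)
    have hc2 : ¬ (t ^ 2 ≤ ‖mm z1 g - u⁻¹‖ ^ 2) := fun h => hcon (Or.inr h)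
    have hm : ‖mm z1 g - u⁻¹‖ ≤ t :=
      (abs_le_of_sq_le_sq' (not_le.1 hc2).le ht.le).2
    have haa := neg_im_aa_ge z hzp ht g (not_le.1 hc1).le
    have hmm1 : -(mm z1 g).im ≤ 2 * t := by
      have h3 := Complex.abs_im_le_norm (mm z1 g - u⁻¹)
      have h4 := neg_abs_le (mm z1 g - u⁻¹).im
      have h5 : (u⁻¹).im = -(u.im / ‖u‖ ^ 2) := by
        rw [Complex.inv_im, Complex.sq_norm, neg_div]
      rw [Complex.sub_im, h5] at h4
      rw [Complex.sub_im, h5] at h3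
      have h6 : u.im / ‖u‖ ^ 2 ≤ u.im := div_le_self hu0.le (one_le_pow₀ hu1)
      rw [huim] at h3 h4 h6
      linarith only [h3, h4, h6, hm]
    have hsh : ‖z1 - z‖ ≤ z.im := by
      have e1 : z1 - z = (((n : ℝ)⁻¹ : ℝ) : ℂ) := by rw [hz]; push_cast; ring
      rw [e1, Complex.norm_real, Real.norm_eq_abs, abs_of_nonneg (by positivity), hzz]
      have h7 : a ≤ 1 := by
        rw [huim] at h24
        linarith only [h24, ht1, ha0]
      rw [ha, inv_mul_le_iff₀ hz1p, mul_one] at h7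
      exact h7
    have hmm := mm_shift z z1 hzp hzz.symm hsh g
    have hγ : 0 < 100 * t ^ 2 := by positivity
    have h8 := neg_im_aa_le z hzp hγ hg'
    have h9 : (100 * t ^ 2)⁻¹ * -(mm z g).im ≤ (100 * t ^ 2)⁻¹ * (8 * t) :=
      mul_le_mul_of_nonneg_left (by linarith only [hmm, hmm1]) (by positivity)
    have h10 : (100 * t ^ 2)⁻¹ * (8 * t) = 2 / 25 * t⁻¹ := by
      field_simp
      norm_num
    have h11 : (12 * t)⁻¹ = 1 / 12 * t⁻¹ := by
      field_simp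
    rw [h10] at h9
    rw [h11] at haa
    have h12 : 0 < t⁻¹ := by positivity
    linarith only [h8, h9, haa, h12]
  calc (disorder n).real {g | 100 * t ^ 2 ≤ gap (skJ 1 g) (fun _ => 0)}
      ≤ (disorder n).real {g : Pairs n → ℝ | 1 / 2 ≤ muS z t g} +
        (disorder n).real {g : Pairs n → ℝ | t ^ 2 ≤ ‖mm z1 g - u⁻¹‖ ^ 2} :=
        (measureReal_mono hsub).trans (measureReal_union_le _ _)
    _ ≤ _ := add_le_add hP2 hP1

end Vale.Agent.P150.H425
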