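import Mathlib
import Vale.Agent.P150.H425.CrFin
import Vale.Agent.P150.H704.Planted
import Vale.Agent.P150.H464C.End

/-! The spectral gap at the critical point: the limit `n → ∞`. -/

open MeasureTheory ProbabilityTheory Filter Topology

namespace Vale.Agent.P150.H425

open Vale.Agent.P150.Cav Vale.Agent.P150.H185.Crit Vale.Agent.P150.H704

lemma q_plant {n : ℕ} (hn : 0 < n) (z : ℂ) (hz : 0 < z.im) (g : Pairs n → ℝ) (x : Cfg n) :
    q z (g + plant x) x = q (z + (n : ℂ)⁻¹) g x / (1 - q (z + (n : ℂ)⁻¹) g x) := by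
  have h := sherman hn z hz g x
  have h' : q z (g + plant x) x * (1 - q (z + (n : ℂ)⁻¹) g x) = q (z + (n : ℂ)⁻¹) g x := h
  have hne : 1 - q (z + (n : ℂ)⁻¹) g x ≠ 0 := by
    intro h0
    rw [h0, mul_zero] at h'
    rw [← h', sub_zero] at h0
    exact one_ne_zero h0
  exact eq_div_of_mul_eq hne h'

/-- Row A. -/
def RowA : Prop := ∀ d : ℝ, 0 < d → Tendsto (fun n : ℕ => (disorder n).real
  {g | ∑ x, Real.exp (energy (skJ 1 g) 0 x) <
    Real.exp (-((n : ℝ) ^ d)) * (2 ^ n * Real.exp (((n : ℝ) - 1) / 4))}) atTop (𝓝 0)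

/-- Row B1. -/
def RowB : Prop := ∀ (n : ℕ) (u z : ℂ) (p : ℕ), 0 < u.im → 1 ≤ ‖u‖ → ‖u - u⁻¹‖ ≤ 4 * u.im →
  z = u + u⁻¹ → 0 < z.im → 0 < n → 1 ≤ p → 48 * p * ((z.im)⁻¹ * (n : ℝ)⁻¹) ≤ u.im →
  ((2 : ℝ) ^ n)⁻¹ * ∑ x : Cfg n, (disorder n).real {g | u.im / 10 ≤ ‖q z g x - u⁻¹‖} ≤
    (614400 * (p : ℝ) ^ 2 * ((z.im)⁻¹ * (n : ℝ)⁻¹) / u.im) ^ p

theorem tendsto_prob (hA : RowA) (hB : RowB) {k : ℝ} (hk0 : 0 < k) (hk : k < 2 / 3) :
    Tendsto (fun n : ℕ => (disorder n).real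
      {g | 100 * ((n : ℝ) ^ (-(k / 2))) ^ 2 ≤ gap (skJ 1 g) (fun _ => 0)}) atTop (𝓝 0) := by
  obtain ⟨d, hd, p, hp, hlim⟩ := H464C.numbers (K := 48) (C := 614400) (k := k) (by norm_num) hk
  have hcast : Tendsto (fun n : ℕ => (n : ℝ)) atTop atTop := tendsto_natCast_atTop_atTop
  have ht0 : Tendsto (fun n : ℕ => (n : ℝ) ^ (-(k / 2))) atTop (𝓝 0) :=
    (tendsto_rpow_neg_atTop (by linarith only [hk0])).comp hcast
  have hbig : Tendsto (fun n : ℕ => (n : ℝ) ^ (1 - 3 * k / 2)) atTop atTop :=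
    (tendsto_rpow_atTop (by linarith only [hk])).comp hcast
  have hinv : Tendsto (fun n : ℕ => ((n : ℝ) ^ (1 - 3 * k / 2))⁻¹) atTop (𝓝 0) :=
    tendsto_inv_atTop_zero.comp hbig
  have hAd := hA d hd
  have hrhs : Tendsto (fun n : ℕ => 2 * ((disorder n).real
      {g | ∑ x, Real.exp (energy (skJ 1 g) 0 x) <
        Real.exp (-((n : ℝ) ^ d)) * (2 ^ n * Real.exp (((n : ℝ) - 1) / 4))} +
      Real.exp ((n : ℝ) ^ d) *
      (614400 * (p n : ℝ) ^ 2 * (((n : ℝ) ^ k / n) / (n : ℝ) ^ (-(k / 2)))) ^ (p n)) +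
      64 * (((n : ℝ) ^ (1 - 3 * k / 2))⁻¹) ^ 2) atTop (𝓝 0) := by
    have h1 := (((hAd.add hlim).const_mul 2).add ((hinv.pow 2).const_mul 64))
    simpa using h1
  refine tendsto_of_tendsto_of_tendsto_of_le_of_le' tendsto_const_nhds hrhs
    (Eventually.of_forall fun n => measureReal_nonneg) ?_
  filter_upwards [eventually_gt_atTop 0, hp, ht0.eventually_le_const (show (0 : ℝ) < 1 / 4 by
    norm_num), hbig.eventually_ge_atTop 24] with n hn hpn ht1 h24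
  have hn' : (0 : ℝ) < n := by exact_mod_cast hn
  set t : ℝ := (n : ℝ) ^ (-(k / 2)) with ht
  have htp : 0 < t := Real.rpow_pos_of_pos hn' _
  have ht3 : (n : ℝ) * t ^ 3 = (n : ℝ) ^ (1 - 3 * k / 2) := by
    rw [ht, ← Real.rpow_natCast, ← Real.rpow_mul hn'.le]
    nth_rewrite 1 [← Real.rpow_one (n : ℝ)]
    rw [← Real.rpow_add hn']
    congr 1
    push_cast
    ring
  have ht2 : (t ^ 2)⁻¹ = (n : ℝ) ^ k := by
    rw [ht, ← Real.rpow_natCast, ← Real.rpow_mul hn'.le, ← Real.rpow_neg hn'.le]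
    congr 1
    push_cast
    ring
  obtain ⟨u, huim, hnu, hnd, hu1, hus, hzim⟩ := param htp ht1 1
  set z1 : ℂ := u + u⁻¹ with hz1
  set z : ℂ := z1 - (n : ℂ)⁻¹ with hz
  have hz1z : z1 = z + (n : ℂ)⁻¹ := by rw [hz]; ring
  have hzz : z.im = z1.im := by
    rw [hz1z, Complex.add_im]
    have : ((n : ℂ)⁻¹) = (((n : ℝ)⁻¹ : ℝ) : ℂ) := by push_cast; rfl
    rw [this, Complex.ofReal_im, add_zero]
  have hz1p : 0 < z1.im := lt_of_lt_of_le (by positivity) hzim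
  have hzp : 0 < z.im := by rw [hzz]; exact hz1p
  have hu0 : 0 < u.im := by rw [huim]; exact htp
  have hnd' : ‖u - 1‖ ^ 2 = 2 * t ^ 2 := by
    have : ((1 : ℝ) : ℂ) = 1 := Complex.ofReal_one
    rw [this] at hnd
    rw [hnd]; ring
  have ha : (z1.im)⁻¹ * (n : ℝ)⁻¹ ≤ (n : ℝ) ^ k / n := by
    rw [← ht2, div_eq_mul_inv]
    exact mul_le_mul_of_nonneg_right (inv_anti₀ (by positivity) hzim) (by positivity)
  have ha0 : 0 ≤ (z1.im)⁻¹ * (n : ℝ)⁻¹ := by positivity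
  have hp48 : 48 * (p n : ℝ) * ((z1.im)⁻¹ * (n : ℝ)⁻¹) ≤ u.im := by
    rw [huim]
    refine le_trans ?_ hpn.2
    exact mul_le_mul_of_nonneg_left ha (by positivity)
  have h1 := hB n u z1 (p n) hu0 hu1 hus hz1 hz1p hn hpn.1 hp48
  have h2 : (614400 * (p n : ℝ) ^ 2 * ((z1.im)⁻¹ * (n : ℝ)⁻¹) / u.im) ^ (p n) ≤
      (614400 * (p n : ℝ) ^ 2 * (((n : ℝ) ^ k / n) / t)) ^ (p n) := by
    refine pow_le_pow_left₀ (by positivity) ?_ _
    rw [huim, mul_div_assoc]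
    refine mul_le_mul_of_nonneg_left ?_ (by positivity)
    exact div_le_div_of_nonneg_right ha htp.le
  have h3 := fixed htp ht1 hn u z z1 huim hnu hnd' hu1 hus hz1 hz1z hzim (by rw [ht3]; exact h24)
    (fun g x => by rw [hz1z]; exact q_plant hn z hzp g x) (s := (n : ℝ) ^ d) le_rfl (h1.trans h2)
  rw [ht3] at h3
  exact h3

/-- The gap at the critical point. -/
theorem gap_crit23 (hA : RowA) (hB : RowB) (κ : ℝ) (hκ : κ < 2 / 3) :
    WHP (fun n => {g | gap (skJ 1 g) (fun _ => 0) ≤ (n : ℝ) ^ (-κ)}) := by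
  obtain ⟨k, hk1, hk2⟩ : ∃ k : ℝ, max κ (1 / 2) < k ∧ k < 2 / 3 :=
    exists_between (max_lt hκ (by norm_num))
  have hkκ : κ < k := lt_of_le_of_lt (le_max_left _ _) hk1
  have hk0 : 0 < k := by
    have := lt_of_le_of_lt (le_max_right κ (1 / 2)) hk1
    linarith only [this]
  have hmain := tendsto_prob hA hB hk0 hk2
  have hlim : Tendsto (fun n : ℕ => 100 * (n : ℝ) ^ (-(k - κ))) atTop (𝓝 0) := by
    have := ((tendsto_rpow_neg_atTop (show 0 < k - κ by linarith only [hkκ])).comp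
      tendsto_natCast_atTop_atTop).const_mul (100 : ℝ)
    simpa using this
  have hreal : Tendsto (fun n : ℕ => (disorder n).real
      {g | gap (skJ 1 g) (fun _ => 0) ≤ (n : ℝ) ^ (-κ)}ᶜ) atTop (𝓝 0) := by
    refine tendsto_of_tendsto_of_tendsto_of_le_of_le' tendsto_const_nhds hmain
      (Eventually.of_forall fun n => measureReal_nonneg) ?_
    filter_upwards [eventually_gt_atTop 0, hlim.eventually_le_const one_pos] with n hn h1
    have hn' : (0 : ℝ) < n := by exact_mod_cast hn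
    have := prob_disorder n
    refine measureReal_mono ?_
    intro g hg
    have hg' : ¬ (gap (skJ 1 g) (fun _ => 0) ≤ (n : ℝ) ^ (-κ)) := hg
    have h2 : 100 * ((n : ℝ) ^ (-(k / 2))) ^ 2 ≤ (n : ℝ) ^ (-κ) := by
      have e1 : ((n : ℝ) ^ (-(k / 2))) ^ 2 = (n : ℝ) ^ (-(k - κ)) * (n : ℝ) ^ (-κ) := by
        rw [← Real.rpow_natCast, ← Real.rpow_mul hn'.le, ← Real.rpow_add hn']
        congr 1
        push_cast
        ring
      rw [e1, ← mul_assoc]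
      exact mul_le_of_le_one_left (Real.rpow_pos_of_pos hn' _).le h1
    exact h2.trans (not_le.1 hg').le
  have h := ENNReal.tendsto_ofReal hreal
  rw [ENNReal.ofReal_zero] at h
  unfold WHP
  refine h.congr fun n => ?_
  have := prob_disorder n
  exact ENNReal.ofReal_toReal (measure_ne_top _ _)

/-- Slow mixing at the critical point with the exponent `2 / 3`. -/
theorem crit23 (hA : RowA) (hB : RowB) (κ : ℝ) (hκ : κ < 2 / 3) : WHP (fun n => {g |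
      gap (skJ 1 g) (fun _ => 0) ≤ (n : ℝ) ^ (-κ) ∧
      Real.log 2 * (n : ℝ) ^ κ ≤ tmix (skJ 1 g) (fun _ => 0) ∧
      ∀ t, 0 ≤ t → ∃ x, Real.exp (-((n : ℝ) ^ (-κ) * t)) / 2 ≤
        tvDist (skJ 1 g) (fun _ => 0) t x}) := by
  refine MainThm.whp_mono (gap_crit23 hA hB κ hκ) ?_
  filter_upwards [eventually_gt_atTop 0] with n hn
  intro g hg
  have hn' : (0 : ℝ) < n := by exact_mod_cast hn
  have hg' : gap (skJ 1 g) (fun _ => 0) ≤ (n : ℝ) ^ (-κ) := hg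
  have hp : 0 < (n : ℝ) ^ (-κ) := Real.rpow_pos_of_pos hn' _
  refine ⟨hg', ?_, fun t ht => H185.exists_tv_ge hn (Asm.skJ_symm 1 g) (fun _ => 0) hg' t ht⟩
  have h5 := tmix_ge hn (Vale.Agent.P150.H185.Crit.skJ_symm 1 g) (fun _ => 0)
    (a := (n : ℝ) ^ (-κ)) hp hg'
  refine le_trans (le_of_eq ?_) h5
  rw [Real.rpow_neg hn'.le, div_inv_eq_mul]

end Vale.Agent.P150.H425
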