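import Mathlib
import Vale.Agent.P150.H425.CrEnd
import Vale.Agent.P150.H464C.LawPow
import Vale.Agent.P150.H581.B0
import Vale.Agent.P150.H357.Cr.A

/-! The SK heat-bath dynamics at the critical point `β = 1`: the exponent `2 / 3`. -/

open MeasureTheory ProbabilityTheory Filter Topology

namespace Vale.Agent.P150.H425.CrLim

open Vale.Agent.P150.Cav Vale.Agent.P150.H185.Crit

lemma rowA : RowA := fun _ hd => H357.Cr.low_Z hd

lemma rowB : RowB := by
  intro n u z p hu hu1 hus hzu hz hn hp hbig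
  exact H581.b0_prob u hu hu1 z hz hn p hp hbig
    (H464C.local_law_pow u hu hu1 hus z hzu hz hn p hbig)

/-- At the critical point the gap is at most `n ^ (-κ)` and the mixing time is at least
`(log 2) n ^ κ`, for every `κ < 2 / 3`. -/
theorem crit_two_thirds (κ : ℝ) (hκ : κ < 2 / 3) : WHP (fun n => {g |
      gap (skJ 1 g) (fun _ => 0) ≤ (n : ℝ) ^ (-κ) ∧
      Real.log 2 * (n : ℝ) ^ κ ≤ tmix (skJ 1 g) (fun _ => 0) ∧
      ∀ t, 0 ≤ t → ∃ x, Real.exp (-((n : ℝ) ^ (-κ) * t)) / 2 ≤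
        tvDist (skJ 1 g) (fun _ => 0) t x}) :=
  crit23 rowA rowB κ hκ

end Vale.Agent.P150.H425.CrLim
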